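import Vale.Agent.P098.Six.S12.Root

/-!
# P098, six dimensions: checked pieces of the tree
-/

namespace Vale.Agent.P098.Six.S12

/-- A piece of the tree. -/
noncomputable def tree25 : Tree LeafX :=
  .s3
    (.s2
    (.s0
    (.leaf (.box ⟨218, 1, -1213, 6, -11, 598, 3603903, 0, 0, 0, 0, 0, 103477309785⟩ ⟨92, 2, -512, 10, -18, 234, 868309, 0, 0, 0, 0, 0, 0⟩ ⟨92, 2, -512, 10, -18, 234, 868309, 0, 0, 0, 0, 0, 0⟩ ⟨104, 3, -512, 11, -21, 213, 728852, 0, 0, 0, 0, 0, 0⟩ ⟨104, 3, -512, 11, -21, 213, 728852, 0, 0, 0, 0, 0, 0⟩ ⟨111, 2, -515, 6, -12, 189, 1268612, 0, 0, 0, 0, 0, 0⟩))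
    (.leaf (.skip 0 8)))
    (.s0
    (.s2
    (.leaf (.box ⟨200, 1, -1125, 6, -12, 591, 3603284, 0, 0, 0, 0, 0, 97095262629⟩ ⟨101, 2, -512, 10, -21, 248, 880760, 0, 0, 0, 0, 0, 0⟩ ⟨101, 2, -512, 10, -21, 248, 880760, 0, 0, 0, 0, 0, 0⟩ ⟨104, 3, -512, 11, -23, 224, 752512, 0, 0, 0, 0, 0, 0⟩ ⟨104, 3, -512, 11, -23, 224, 752512, 0, 0, 0, 0, 0, 0⟩ ⟨123, 2, -545, 6, -13, 210, 1309782, 0, 0, 0, 0, 0, 0⟩))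
    (.leaf (.box ⟨235, 1, -1183, 6, -14, 655, 3604075, 0, 0, 0, 0, 0, 144522027510⟩ ⟨109, 2, -512, 10, -23, 260, 888410, 0, 0, 0, 0, 0, 0⟩ ⟨109, 2, -512, 10, -23, 260, 888410, 0, 0, 0, 0, 0, 0⟩ ⟨116, 3, -512, 11, -25, 234, 762380, 0, 0, 0, 0, 0, 0⟩ ⟨116, 3, -512, 11, -25, 234, 762380, 0, 0, 0, 0, 0, 0⟩ ⟨138, 2, -543, 6, -14, 216, 1327596, 0, 0, 0, 0, 0, 0⟩)))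
    (.leaf (.skip 0 8))))
    (.s2
    (.s0
    (.leaf (.box ⟨245, 1, -1408, 6, -11, 687, 3957807, 0, 0, 0, 0, 0, 137515933008⟩ ⟨92, 2, -512, 10, -17, 233, 879984, 0, 0, 0, 0, 0, 0⟩ ⟨92, 2, -512, 10, -17, 233, 879984, 0, 0, 0, 0, 0, 0⟩ ⟨101, 3, -512, 11, -20, 213, 727535, 0, 0, 0, 0, 0, 0⟩ ⟨101, 3, -512, 11, -20, 213, 727535, 0, 0, 0, 0, 0, 0⟩ ⟨112, 2, -516, 6, -11, 190, 1261266, 0, 0, 0, 0, 0, 0⟩))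
    (.leaf (.skip 0 8)))
    (.s0
    (.s2
    (.s1
    (.leaf (.box ⟨305, 1, -1745, 6, -14, 915, 4225246, 0, 0, 0, 0, 0, 224987458795⟩ ⟨88, 2, -512, 7, -18, 251, 929663, 0, 0, 0, 0, 0, 0⟩ ⟨88, 2, -512, 7, -18, 251, 929663, 0, 0, 0, 0, 0, 0⟩ ⟨91, 3, -512, 9, -21, 231, 753971, 0, 0, 0, 0, 0, 0⟩ ⟨91, 3, -512, 9, -21, 231, 753971, 0, 0, 0, 0, 0, 0⟩ ⟨130, 2, -689, 6, -16, 278, 1295988, 0, 0, 0, 0, 0, 0⟩))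
    (.leaf (.box ⟨86, 1, -512, 7, -20, 264, 1009359, 0, 0, 0, 0, 0, 0⟩ ⟨0, 0, 0, 0, 0, 0, 870960, 0, 0, 0, 0, 0, 0⟩ ⟨0, 0, 0, 0, 0, 0, 870960, 0, 0, 0, 0, 0, 0⟩ ⟨0, 0, 0, 0, 0, 0, 765938, 0, 0, 0, 0, 0, 0⟩ ⟨0, 0, 0, 0, 0, 0, 765938, 0, 0, 0, 0, 0, 0⟩ ⟨79, 2, -512, 8, -24, 188, 683517, 0, 0, 0, 0, 0, 0⟩)))
    (.s1
    (.leaf (.box ⟨94, 1, -512, 8, -18, 282, 1048218, 0, 0, 0, 0, 0, 23855356522⟩ ⟨0, 0, 0, 0, 0, 0, 894523, 0, 0, 0, 0, 0, 0⟩ ⟨0, 0, 0, 0, 0, 0, 894523, 0, 0, 0, 0, 0, 0⟩ ⟨0, 0, 0, 0, 0, 0, 780136, 0, 0, 0, 0, 0, 0⟩ ⟨0, 0, 0, 0, 0, 0, 780136, 0, 0, 0, 0, 0, 0⟩ ⟨105, 3, -512, 9, -24, 214, 691686, 0, 0, 0, 0, 0, 0⟩))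
    (.leaf (.box ⟨94, 1, -512, 8, -22, 278, 1019643, 0, 0, 0, 0, 0, 0⟩ ⟨0, 0, 0, 0, 0, 0, 882940, 0, 0, 0, 0, 0, 0⟩ ⟨0, 0, 0, 0, 0, 0, 882940, 0, 0, 0, 0, 0, 0⟩ ⟨0, 0, 0, 0, 0, 0, 778559, 0, 0, 0, 0, 0, 0⟩ ⟨0, 0, 0, 0, 0, 0, 778559, 0, 0, 0, 0, 0, 0⟩ ⟨88, 2, -512, 8, -25, 194, 696248, 0, 0, 0, 0, 0, 0⟩))))
    (.leaf (.skip 0 8))))

/-- A piece of the tree. -/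
noncomputable def tree26 : Tree LeafX :=
  .leaf (.box ⟨208, 3, -512, 27, -41, 291, 797754, 0, 0, 0, 0, 0, 0⟩ ⟨0, 0, 0, 0, 0, 0, 743297, 0, 0, 0, 0, 0, 0⟩ ⟨0, 0, 0, 0, 0, 0, 743297, 0, 0, 0, 0, 0, 0⟩ ⟨0, 0, 0, 0, 0, 0, 695799, 0, 0, 0, 0, 0, 0⟩ ⟨0, 0, 0, 0, 0, 0, 695799, 0, 0, 0, 0, 0, 0⟩ ⟨170, 3, -512, 20, -34, 179, 654007, 0, 0, 0, 0, 0, 0⟩)

/-- A piece of the tree. -/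
noncomputable def tree27 : Tree LeafX :=
  .s1
    (.s1
    (.leaf (.box ⟨376, 5, -512, 27, -44, 424, 913608, 0, 0, 0, 0, 0, 88220022303⟩ ⟨0, 0, 0, 0, 0, 0, 829161, 0, 0, 0, 0, 0, 0⟩ ⟨0, 0, 0, 0, 0, 0, 829161, 0, 0, 0, 0, 0, 0⟩ ⟨0, 0, 0, 0, 0, 0, 759004, 0, 0, 0, 0, 0, 0⟩ ⟨0, 0, 0, 0, 0, 0, 759004, 0, 0, 0, 0, 0, 0⟩ ⟨416, 8, -512, 25, -44, 292, 699793, 0, 0, 0, 0, 0, 0⟩))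
    (.leaf (.box ⟨354, 3, -512, 27, -51, 401, 886117, 0, 0, 0, 0, 0, 0⟩ ⟨0, 0, 0, 0, 0, 0, 818321, 0, 0, 0, 0, 0, 0⟩ ⟨0, 0, 0, 0, 0, 0, 818321, 0, 0, 0, 0, 0, 0⟩ ⟨0, 0, 0, 0, 0, 0, 760162, 0, 0, 0, 0, 0, 0⟩ ⟨0, 0, 0, 0, 0, 0, 760162, 0, 0, 0, 0, 0, 0⟩ ⟨301, 4, -512, 20, -42, 240, 709720, 0, 0, 0, 0, 0, 0⟩)))
    (.leaf (.box ⟨335, 1, -512, 31, -57, 362, 851699, 0, 0, 0, 0, 0, 0⟩ ⟨0, 0, 0, 0, 0, 0, 804927, 0, 0, 0, 0, 0, 0⟩ ⟨0, 0, 0, 0, 0, 0, 804927, 0, 0, 0, 0, 0, 0⟩ ⟨0, 0, 0, 0, 0, 0, 763025, 0, 0, 0, 0, 0, 0⟩ ⟨0, 0, 0, 0, 0, 0, 763025, 0, 0, 0, 0, 0, 0⟩ ⟨261, 1, -512, 21, -37, 197, 725269, 0, 0, 0, 0, 0, 0⟩))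

/-- A piece of the tree. -/
noncomputable def tree28 : Tree LeafX :=
  .s2
    (.leaf (.box ⟨304, 1, -512, 76, -35, 209, 391558, 0, 0, 0, 0, 0, 0⟩ ⟨0, 0, 0, 0, 0, 0, 372978, 0, 0, 0, 0, 0, 0⟩ ⟨0, 0, 0, 0, 0, 0, 372978, 0, 0, 0, 0, 0, 0⟩ ⟨0, 0, 0, 0, 0, 0, 356080, 0, 0, 0, 0, 0, 0⟩ ⟨0, 0, 0, 0, 0, 0, 356080, 0, 0, 0, 0, 0, 0⟩ ⟨162, 1, -512, 56, -28, 144, 340647, 0, 0, 0, 0, 0, 0⟩))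
    (.leaf (.box ⟨469, -7, -512, 40, -29, 229, 886623, 0, 0, 0, 0, 1115333336, 0⟩ ⟨360, -13, -512, 72, -51, 194, 401723, 0, 0, 0, 0, 0, 0⟩ ⟨360, -13, -512, 72, -51, 194, 401723, 0, 0, 0, 0, 0, 0⟩ ⟨268, -11, -512, 57, -38, 165, 438691, 0, 0, 0, 0, 0, 0⟩ ⟨268, -11, -512, 57, -38, 165, 438691, 0, 0, 0, 0, 0, 0⟩ ⟨224, -4, -512, 23, -15, 143, 934115, 0, 0, 0, 0, 0, 0⟩))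

/-- A piece of the tree. -/
noncomputable def tree29 : Tree LeafX :=
  .s1
    (.s2
    (.s0
    (.s2
    (.leaf (.box ⟨131, -4, -512, 13, 0, 89, 164756, 0, 0, 0, 0, 0, 0⟩ ⟨0, 0, 0, 0, 0, 0, 163591, 0, 0, 0, 0, 0, 0⟩ ⟨0, 0, 0, 0, 0, 0, 163591, 0, 0, 0, 0, 0, 0⟩ ⟨0, 0, 0, 0, 0, 0, 162442, 0, 0, 0, 0, 0, 0⟩ ⟨0, 0, 0, 0, 0, 0, 162442, 0, 0, 0, 0, 0, 0⟩ ⟨63, -2, -512, 9, 0, 89, 161309, 0, 0, 0, 0, 0, 0⟩))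
    (.s1
    (.leaf (.box ⟨132, -2, -512, 10, -1, 90, 182628, 0, 0, 0, 0, 0, 0⟩ ⟨0, 0, 0, 0, 0, 0, 179193, 0, 0, 0, 0, 0, 0⟩ ⟨0, 0, 0, 0, 0, 0, 179193, 0, 0, 0, 0, 0, 0⟩ ⟨0, 0, 0, 0, 0, 0, 175885, 0, 0, 0, 0, 0, 0⟩ ⟨0, 0, 0, 0, 0, 0, 175885, 0, 0, 0, 0, 0, 0⟩ ⟨75, -1, -512, 7, -1, 88, 172696, 0, 0, 0, 0, 0, 0⟩))
    (.s2
    (.leaf (.box ⟨115, -4, -512, 11, 0, 86, 182559, 0, 0, 0, 0, 0, 0⟩ ⟨0, 0, 0, 0, 0, 0, 182154, 0, 0, 0, 0, 0, 0⟩ ⟨0, 0, 0, 0, 0, 0, 182154, 0, 0, 0, 0, 0, 0⟩ ⟨0, 0, 0, 0, 0, 0, 181750, 0, 0, 0, 0, 0, 0⟩ ⟨0, 0, 0, 0, 0, 0, 181750, 0, 0, 0, 0, 0, 0⟩ ⟨53, -2, -512, 7, 0, 88, 181347, 0, 0, 0, 0, 0, 0⟩))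
    (.s0
    (.leaf (.box ⟨74, -2, -638, 6, 2, 97, 193955, 0, 0, 0, 0, 2496874731, 0⟩ ⟨0, 0, 0, 0, 0, 0, 192702, 0, 0, 0, 0, 0, 0⟩ ⟨0, 0, 0, 0, 0, 0, 192702, 0, 0, 0, 0, 0, 0⟩ ⟨0, 0, 0, 0, 0, 0, 191465, 0, 0, 0, 0, 0, 0⟩ ⟨0, 0, 0, 0, 0, 0, 191465, 0, 0, 0, 0, 0, 0⟩ ⟨44, -2, -803, 6, 2, 130, 190243, 0, 0, 0, 0, 0, 0⟩))
    (.leaf (.box ⟨78, -2, -512, 6, 0, 90, 261753, 0, 0, 0, 0, 2208031903, 0⟩ ⟨0, 0, 0, 0, 0, 0, 259488, 0, 0, 0, 0, 0, 0⟩ ⟨0, 0, 0, 0, 0, 0, 259488, 0, 0, 0, 0, 0, 0⟩ ⟨0, 0, 0, 0, 0, 0, 257261, 0, 0, 0, 0, 0, 0⟩ ⟨0, 0, 0, 0, 0, 0, 257261, 0, 0, 0, 0, 0, 0⟩ ⟨50, -1, -718, 6, 0, 126, 255072, 0, 0, 0, 0, 0, 0⟩))))))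
    (.s0
    (.s1
    (.leaf (.box ⟨130, -1, -512, 9, -6, 122, 298697, 0, 0, 0, 0, 0, 0⟩ ⟨0, 0, 0, 0, 0, 0, 290434, 0, 0, 0, 0, 0, 0⟩ ⟨0, 0, 0, 0, 0, 0, 290434, 0, 0, 0, 0, 0, 0⟩ ⟨0, 0, 0, 0, 0, 0, 282615, 0, 0, 0, 0, 0, 0⟩ ⟨0, 0, 0, 0, 0, 0, 282615, 0, 0, 0, 0, 0, 0⟩ ⟨95, -1, -512, 8, -5, 105, 275205, 0, 0, 0, 0, 0, 0⟩))
    (.s2
    (.leaf (.box ⟨95, -2, -512, 8, -6, 112, 292919, 0, 0, 0, 0, 0, 0⟩ ⟨0, 0, 0, 0, 0, 0, 290956, 0, 0, 0, 0, 0, 0⟩ ⟨0, 0, 0, 0, 0, 0, 290956, 0, 0, 0, 0, 0, 0⟩ ⟨0, 0, 0, 0, 0, 0, 289018, 0, 0, 0, 0, 0, 0⟩ ⟨0, 0, 0, 0, 0, 0, 289018, 0, 0, 0, 0, 0, 0⟩ ⟨49, -2, -512, 6, -4, 100, 287106, 0, 0, 0, 0, 0, 0⟩))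
    (.leaf (.box ⟨101, -2, -512, 8, -4, 110, 329811, 0, 0, 0, 0, 2402302933, 0⟩ ⟨0, 0, 0, 0, 0, 0, 326130, 0, 0, 0, 0, 0, 0⟩ ⟨0, 0, 0, 0, 0, 0, 326130, 0, 0, 0, 0, 0, 0⟩ ⟨0, 0, 0, 0, 0, 0, 322531, 0, 0, 0, 0, 0, 0⟩ ⟨0, 0, 0, 0, 0, 0, 322531, 0, 0, 0, 0, 0, 0⟩ ⟨58, -1, -542, 6, -3, 106, 319009, 0, 0, 189441, 0, 0, 0⟩))))
    (.s2
    (.leaf (.box ⟨147, -1, -512, 11, -11, 148, 398318, 0, 0, 0, 0, 0, 0⟩ ⟨0, 0, 0, 0, 0, 0, 385199, 0, 0, 0, 0, 0, 0⟩ ⟨0, 0, 0, 0, 0, 0, 385199, 0, 0, 0, 0, 0, 0⟩ ⟨0, 0, 0, 0, 0, 0, 372916, 0, 0, 0, 0, 0, 0⟩ ⟨0, 0, 0, 0, 0, 0, 372916, 0, 0, 0, 0, 0, 0⟩ ⟨129, -1, -512, 8, -9, 117, 361392, 0, 0, 0, 0, 0, 0⟩))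
    (.leaf (.box ⟨233, -2, -512, 11, -11, 152, 434033, 0, 0, 0, 0, 0, 0⟩ ⟨0, 0, 0, 0, 0, 0, 418056, 0, 0, 0, 0, 0, 0⟩ ⟨0, 0, 0, 0, 0, 0, 418056, 0, 0, 0, 0, 0, 0⟩ ⟨0, 0, 0, 0, 0, 0, 403213, 0, 0, 0, 0, 0, 0⟩ ⟨0, 0, 0, 0, 0, 0, 403213, 0, 0, 0, 0, 0, 0⟩ ⟨165, -2, -512, 10, -9, 119, 389387, 0, 0, 0, 0, 0, 0⟩)))))
    (.s0
    (.s1
    (.leaf (.box ⟨148, -1, -512, 9, 0, 90, 201179, 0, 0, 0, 0, 2357795629, 0⟩ ⟨0, 0, 0, 0, 0, 0, 195901, 0, 0, 0, 0, 0, 0⟩ ⟨0, 0, 0, 0, 0, 0, 195901, 0, 0, 0, 0, 0, 0⟩ ⟨0, 0, 0, 0, 0, 0, 190892, 0, 0, 0, 0, 0, 0⟩ ⟨0, 0, 0, 0, 0, 0, 190892, 0, 0, 0, 0, 0, 0⟩ ⟨97, -1, -512, 9, 0, 87, 186132, 0, 0, 0, 0, 0, 0⟩))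
    (.leaf (.box ⟨116, -2, -512, 11, 3, 82, 206705, 0, 0, 0, 0, 3014431750, 0⟩ ⟨0, 0, 0, 0, 0, 0, 204580, 0, 0, 0, 0, 0, 0⟩ ⟨0, 0, 0, 0, 0, 0, 204580, 0, 0, 0, 0, 0, 0⟩ ⟨0, 0, 0, 0, 0, 0, 202498, 0, 0, 0, 0, 0, 0⟩ ⟨0, 0, 0, 0, 0, 0, 202498, 0, 0, 0, 0, 0, 0⟩ ⟨73, -2, -512, 11, 3, 85, 200457, 0, 0, 0, 0, 0, 0⟩)))
    (.leaf (.box ⟨477, -4, -512, 25, -7, 132, 355387, 0, 0, 0, 0, 21831093112, 0⟩ ⟨0, 0, 0, 0, 0, 0, 344708, 0, 0, 0, 0, 0, 0⟩ ⟨0, 0, 0, 0, 0, 0, 344708, 0, 0, 0, 0, 0, 0⟩ ⟨0, 0, 0, 0, 0, 0, 334652, 0, 0, 0, 0, 0, 0⟩ ⟨0, 0, 0, 0, 0, 0, 334652, 0, 0, 0, 0, 0, 0⟩ ⟨268, -3, -512, 20, -5, 113, 325166, 14812233, 0, 0, 0, 673739437, 0⟩))))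
    (.s2
    (.s2
    (.s0
    (.leaf (.box ⟨127, -15, -512, 18, 2, 82, 166473, 0, 0, 0, 0, 0, 0⟩ ⟨0, 0, 0, 0, 0, 0, 171194, 0, 0, 0, 0, 0, 0⟩ ⟨0, 0, 0, 0, 0, 0, 171194, 0, 0, 0, 0, 0, 0⟩ ⟨0, 0, 0, 0, 0, 0, 176190, 0, 0, 0, 0, 0, 0⟩ ⟨0, 0, 0, 0, 0, 0, 176190, 0, 0, 0, 0, 0, 0⟩ ⟨45, -4, -512, 9, -1, 90, 181486, 0, 0, 0, 0, 0, 0⟩))
    (.leaf (.box ⟨176, -12, -512, 22, -7, 110, 296823, 0, 0, 0, 0, 1666968863, 0⟩ ⟨0, 0, 0, 0, 0, 0, 301056, 0, 0, 0, 0, 0, 0⟩ ⟨0, 0, 0, 0, 0, 0, 301056, 0, 0, 0, 0, 0, 0⟩ ⟨0, 0, 0, 0, 0, 0, 305411, 0, 0, 0, 0, 0, 0⟩ ⟨0, 0, 0, 0, 0, 0, 305411, 0, 0, 0, 0, 0, 0⟩ ⟨73, -4, -512, 12, -5, 103, 309894, 0, 0, 0, 0, 0, 0⟩)))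
    (.s0
    (.leaf (.box ⟨105, -8, -512, 13, 2, 79, 189982, 0, 0, 0, 0, 1778301107, 0⟩ ⟨0, 0, 0, 0, 0, 0, 193548, 0, 0, 0, 0, 0, 0⟩ ⟨0, 0, 0, 0, 0, 0, 193548, 0, 0, 0, 0, 0, 0⟩ ⟨0, 0, 0, 0, 0, 0, 197251, 0, 0, 0, 0, 0, 0⟩ ⟨0, 0, 0, 0, 0, 0, 197251, 0, 0, 0, 0, 0, 0⟩ ⟨52, -4, -512, 12, -1, 88, 201097, 0, 0, 0, 0, 776768733, 0⟩))
    (.leaf (.box ⟨156, -8, -512, 18, -3, 104, 347415, 0, 0, 0, 0, 3743067553, 0⟩ ⟨0, 0, 0, 0, 0, 0, 350575, 0, 0, 0, 0, 0, 0⟩ ⟨0, 0, 0, 0, 0, 0, 350575, 0, 0, 0, 0, 0, 0⟩ ⟨0, 0, 0, 0, 0, 0, 353792, 0, 0, 0, 0, 0, 0⟩ ⟨0, 0, 0, 0, 0, 0, 353792, 0, 0, 0, 0, 0, 0⟩ ⟨77, -3, -512, 10, -3, 103, 357068, 0, 0, 0, 0, 0, 0⟩))))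
    (.leaf (.skip 8 0)))

/-- A piece of the tree. -/
noncomputable def tree30 : Tree LeafX :=
  .s1
    (.s2
    (.s0
    (.s2
    (.s2
    (.leaf (.box ⟨292, 0, -512, 11, -12, 229, 1270409, 0, 0, 0, 0, 0, 0⟩ ⟨271, -1, -512, 23, -26, 200, 503415, 0, 0, 0, 0, 0, 0⟩ ⟨271, -1, -512, 23, -26, 200, 503415, 0, 0, 0, 0, 0, 0⟩ ⟨272, -1, -512, 20, -23, 175, 494975, 0, 0, 0, 0, 0, 0⟩ ⟨272, -1, -512, 20, -23, 175, 494975, 0, 0, 0, 0, 0, 0⟩ ⟨277, 0, -512, 10, -10, 152, 954535, 0, 0, 0, 0, 0, 0⟩))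
    (.leaf (.box ⟨366, -1, -512, 27, -31, 246, 554267, 0, 0, 0, 0, 0, 0⟩ ⟨0, 0, 0, 0, 0, 0, 528443, 0, 0, 0, 0, 0, 0⟩ ⟨0, 0, 0, 0, 0, 0, 528443, 0, 0, 0, 0, 0, 0⟩ ⟨0, 0, 0, 0, 0, 0, 504918, 0, 0, 0, 0, 0, 0⟩ ⟨0, 0, 0, 0, 0, 0, 504918, 0, 0, 0, 0, 0, 0⟩ ⟨321, -1, -512, 19, -22, 157, 483398, 0, 0, 0, 0, 0, 0⟩)))
    (.leaf (.box ⟨512, -2, -377, 25, -27, 203, 567829, 0, 0, 0, 0, 0, 0⟩ ⟨0, 0, 0, 0, 0, 0, 541832, 0, 0, 0, 0, 0, 0⟩ ⟨0, 0, 0, 0, 0, 0, 541832, 0, 0, 0, 0, 0, 0⟩ ⟨0, 0, 0, 0, 0, 0, 518112, 0, 0, 0, 0, 0, 0⟩ ⟨0, 0, 0, 0, 0, 0, 518112, 0, 0, 0, 0, 0, 0⟩ ⟨464, -3, -512, 28, -23, 165, 496380, 0, 0, 0, 0, 0, 0⟩)))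
    (.leaf (.box ⟨512, 1, -63, 23, -23, 142, 905937, 0, 0, 0, 0, 0, 0⟩ ⟨0, 0, 0, 0, 0, 0, 841645, 0, 0, 0, 0, 0, 0⟩ ⟨0, 0, 0, 0, 0, 0, 841645, 0, 0, 0, 0, 0, 0⟩ ⟨0, 0, 0, 0, 0, 0, 785872, 0, 0, 0, 0, 0, 0⟩ ⟨0, 0, 0, 0, 0, 0, 785872, 0, 0, 0, 0, 0, 0⟩ ⟨512, 1, -165, 21, -21, 103, 737032, 0, 0, 0, 0, 0, 0⟩)))
    (.leaf (.skip 8 0)))
    (.s2
    (.leaf (.box ⟨512, -22, -421, 80, -40, 187, 530989, 0, 0, 0, 0, 55845731128, 0⟩ ⟨0, 0, 0, 0, 0, 0, 529044, 0, 0, 0, 0, 0, 0⟩ ⟨0, 0, 0, 0, 0, 0, 529044, 0, 0, 0, 0, 0, 0⟩ ⟨0, 0, 0, 0, 0, 0, 527113, 0, 0, 0, 0, 0, 0⟩ ⟨0, 0, 0, 0, 0, 0, 527113, 0, 0, 0, 0, 0, 0⟩ ⟨334, -12, -512, 52, -26, 148, 525195, 0, 0, 0, 0, 0, 0⟩))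
    (.leaf (.skip 8 0)))

theorem parts1 :
    (runPathS conQ supQ (fun n Qs i d x => leafR conQ seg n Qs i d x) [.d0 true, .d1 true, .d2 false, .d0 true, .d1 false, .d0 true, .d2 true, .d2 false, .d1 false, .d3 true, .d3 true] tree25 0 0 0
      (joinS (lay.B * lay.size) rootQ) = true) ∧
    (runPathS conQ supQ (fun n Qs i d x => leafR conQ seg n Qs i d x) [.d0 true, .d1 true, .d2 false, .d0 true, .d1 false, .d0 true, .d2 true, .d2 false, .d1 true] tree26 0 0 0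
      (joinS (lay.B * lay.size) rootQ) = true) ∧
    (runPathS conQ supQ (fun n Qs i d x => leafR conQ seg n Qs i d x) [.d0 true, .d1 true, .d2 false, .d0 true, .d1 false, .d0 true, .d2 true, .d2 true] tree27 0 0 0
      (joinS (lay.B * lay.size) rootQ) = true) ∧
    (runPathS conQ supQ (fun n Qs i d x => leafR conQ seg n Qs i d x) [.d0 true, .d1 true, .d2 false, .d0 true, .d1 true] tree28 0 0 0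
      (joinS (lay.B * lay.size) rootQ) = true) ∧
    (runPathS conQ supQ (fun n Qs i d x => leafR conQ seg n Qs i d x) [.d0 true, .d1 true, .d2 true, .d0 false] tree29 0 0 0
      (joinS (lay.B * lay.size) rootQ) = true) ∧
    (runPathS conQ supQ (fun n Qs i d x => leafR conQ seg n Qs i d x) [.d0 true, .d1 true, .d2 true, .d0 true] tree30 0 0 0
      (joinS (lay.B * lay.size) rootQ) = true) :=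
  ⟨by decide +kernel,
  by decide +kernel,
  by decide +kernel,
  by decide +kernel,
  by decide +kernel,
  by decide +kernel⟩

end Vale.Agent.P098.Six.S12
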